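import Vale.Agent.P074.MathlibUsed

open MeasureTheory Set
open scoped ENNReal NNReal

namespace Vale.Agent.P074

/-- Euclidean space of dimension `d`. -/
abbrev E (d : ℕ) : Type := EuclideanSpace ℝ (Fin d)

/-- The uniform probability measure on `K`: Lebesgue measure restricted to `K` and divided by
the volume of `K` (this is Mathlib's conditional measure of `volume` given `K`). -/
noncomputable def unif {d : ℕ} (K : Set (E d)) : Measure (E d) :=
  ProbabilityTheory.cond volume K

section General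

variable {X : Type} [NormedAddCommGroup X] [MeasurableSpace X]

/-- `T` is a quadratic optimal transport map from `ρ` to `μ`: it is Borel, pushes `ρ` forward
to `μ`, and minimises `∫ |x - S x|² dρ` among all Borel maps `S` with `S_# ρ = μ`. -/
def IsOptimalMap (ρ μ : Measure X) (T : X → X) : Prop :=
  Measurable T ∧ ρ.map T = μ ∧ ∀ S : X → X, Measurable S → ρ.map S = μ →
    ∫⁻ x, ‖x - T x‖ₑ ^ 2 ∂ρ ≤ ∫⁻ x, ‖x - S x‖ₑ ^ 2 ∂ρ

/-- The Wasserstein distance `W_p`, with values in `[0, ∞]`: the `p`-th root of the infimum of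
`∫ |y - z|^p dπ` over all couplings `π` of `μ` and `ν`. -/
noncomputable def Wass (p : ℝ) (μ ν : Measure X) : ℝ≥0∞ :=
  (⨅ (π : Measure (X × X)) (_ : π.map Prod.fst = μ) (_ : π.map Prod.snd = ν),
    ∫⁻ z, ‖z.1 - z.2‖ₑ ^ p ∂π) ^ (1 / p)

/-- The stability estimate `‖T_μ - T_ν‖_{L²(ρ)} ≤ C W_p(μ, ν)^α` for all probability measures
`μ, ν` supported in `Y`. -/
def StabilityEstimate (ρ : Measure X) (Y : Set X) (p α : ℝ) (C : ℝ≥0) : Prop :=
  ∀ μ ν : Measure X, IsProbabilityMeasure μ → IsProbabilityMeasure ν →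
    μ Yᶜ = 0 → ν Yᶜ = 0 → ∀ T S : X → X, IsOptimalMap ρ μ T → IsOptimalMap ρ ν S →
      eLpNorm (fun x => T x - S x) 2 ρ ≤ C * Wass p μ ν ^ α

end General

/-- `α` is admissible in dimension `d`: for every compact convex `K` with nonempty interior and
every nonempty compact `Y` the estimate `‖T_μ - T_ν‖_{L²(ρ)} ≤ C W_2(μ, ν)^α` holds on
`P(Y)` with some finite constant `C = C(K, Y)`. -/
def Admissible (d : ℕ) (α : ℝ) : Prop :=
  ∀ K Y : Set (E d), IsCompact K → Convex ℝ K → (interior K).Nonempty →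
    IsCompact Y → Y.Nonempty → ∃ C : ℝ≥0, StabilityEstimate (unif K) Y 2 α C

end Vale.Agent.P074
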