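import Mathlib.Algebra.Order.Archimedean.Real.Hom
import Mathlib.Analysis.Calculus.Gradient.Basic
import Mathlib.Analysis.Calculus.LocalExtr.Basic
import Mathlib.Analysis.Calculus.Rademacher
import Mathlib.MeasureTheory.Function.L2Space
import Mathlib.MeasureTheory.Function.SpecialFunctions.Inner
import Mathlib.MeasureTheory.Integral.Layercake
import Mathlib.MeasureTheory.Measure.HasOuterApproxClosed
import Mathlib.Order.CompletePartialOrder
import Mathlib.Tactic
import Mathlib.Topology.ContinuousMap.Bounded.ArzelaAscoli
import Mathlib.Topology.Order.LowerUpperTopology
import Mathlib.Topology.Separation.CompletelyRegular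

/-! The part of Mathlib that the development of this folder uses. -/
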