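import Vale.Agent.P347.MathlibUsed

open MeasureTheory Set
open scoped ENNReal NNReal Pointwise

namespace Vale.Agent.P074

/-- One-dimensional Brunn-Minkowski, compact case, midpoint form. -/
theorem bm_one_compact {K L C : Set ℝ} (hK : IsCompact K) (hL : IsCompact L)
    (nK : K.Nonempty) (nL : L.Nonempty) (h : ∀ a ∈ K, ∀ b ∈ L, (a + b) / 2 ∈ C) :
    volume K + volume L ≤ 2 * volume C := by
  obtain ⟨a, haK, ha⟩ := hK.exists_isGreatest nK
  obtain ⟨b, hbL, hb⟩ := hL.exists_isLeast nL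
  have h1 : (fun x => x + b) '' K ⊆ (2 : ℝ) • C := by
    rintro _ ⟨x, hx, rfl⟩
    refine ⟨(x + b) / 2, h x hx b hbL, ?_⟩
    simp only [smul_eq_mul]
    ring
  have h2 : (fun y => a + y) '' L ⊆ (2 : ℝ) • C := by
    rintro _ ⟨y, hy, rfl⟩
    refine ⟨(a + y) / 2, h a haK y hy, ?_⟩
    simp only [smul_eq_mul]
    ring
  have c1 : IsCompact ((fun x => x + b) '' K) := hK.image (by fun_prop)
  have c2 : IsCompact ((fun y => a + y) '' L) := hL.image (by fun_prop)
  have hdis : AEDisjoint volume ((fun x => x + b) '' K) ((fun y => a + y) '' L) := by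
    have : ((fun x => x + b) '' K) ∩ ((fun y => a + y) '' L) ⊆ {a + b} := by
      rintro _ ⟨⟨x, hx, rfl⟩, ⟨y, hy, hxy⟩⟩
      have hx' := ha hx
      have hy' := hb hy
      simp only at hxy
      simp only [mem_singleton_iff]
      linarith
    exact measure_mono_null this (by simp)
  have v1 : volume ((fun x => x + b) '' K) = volume K := by
    simp
  have v2 : volume ((fun y => a + y) '' L) = volume L := by
    simp
  have v3 : volume ((2 : ℝ) • C) = 2 * volume C := by
    rw [Measure.addHaar_smul]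
    simp
  calc volume K + volume L = volume ((fun x => x + b) '' K) + volume ((fun y => a + y) '' L) := by
        rw [v1, v2]
    _ = volume (((fun x => x + b) '' K) ∪ ((fun y => a + y) '' L)) := by
        rw [measure_union₀ c2.measurableSet.nullMeasurableSet hdis]
    _ ≤ volume ((2 : ℝ) • C) := measure_mono (union_subset h1 h2)
    _ = 2 * volume C := v3

/-- One-dimensional Brunn-Minkowski, midpoint form. -/
theorem bm_one {A B C : Set ℝ} (hA : MeasurableSet A) (hB : MeasurableSet B)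
    (nA : A.Nonempty) (nB : B.Nonempty) (h : ∀ a ∈ A, ∀ b ∈ B, (a + b) / 2 ∈ C) :
    volume A + volume B ≤ 2 * volume C := by
  have key : ∀ K L : Set ℝ, IsCompact K → IsCompact L → K ⊆ A → L ⊆ B →
      volume K + volume L ≤ 2 * volume C := by
    intro K L hK hL hKA hLB
    obtain ⟨a0, ha0⟩ := nA
    obtain ⟨b0, hb0⟩ := nB
    have hK' : IsCompact (K ∪ {a0}) := hK.union isCompact_singleton
    have hL' : IsCompact (L ∪ {b0}) := hL.union isCompact_singleton
    have := bm_one_compact hK' hL' ⟨a0, by simp⟩ ⟨b0, by simp⟩ (C := C) (by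
      intro a ha b hb
      apply h
      · rcases ha with ha | ha
        · exact hKA ha
        · rw [mem_singleton_iff.mp ha]; exact ha0
      · rcases hb with hb | hb
        · exact hLB hb
        · rw [mem_singleton_iff.mp hb]; exact hb0)
    refine le_trans (add_le_add (measure_mono subset_union_left)
      (measure_mono subset_union_left)) this
  have key2 : ∀ K : Set ℝ, IsCompact K → K ⊆ A → volume K + volume B ≤ 2 * volume C := by
    intro K hK hKA
    have hKfin : volume K ≠ ∞ := hK.measure_lt_top.ne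
    have : volume B ≤ 2 * volume C - volume K := by
      refine le_of_forall_lt fun s hs => ?_
      obtain ⟨L, hLB, hL, hsL⟩ := hB.exists_lt_isCompact hs
      refine lt_of_lt_of_le hsL ?_
      exact ENNReal.le_sub_of_add_le_left hKfin (key K L hK hL hKA hLB)
    calc volume K + volume B ≤ volume K + (2 * volume C - volume K) := by gcongr
      _ = 2 * volume C := by
        rw [add_tsub_cancel_of_le]
        exact le_trans (by simp) (key K ∅ hK isCompact_empty hKA (empty_subset _))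
  by_cases hBfin : volume B = ∞
  · have := key2 ∅ isCompact_empty (empty_subset _)
    rw [hBfin] at this
    have h3 : 2 * volume C = ∞ := by
      simpa using this
    rw [h3]
    exact le_top
  · have : volume A ≤ 2 * volume C - volume B := by
      refine le_of_forall_lt fun s hs => ?_
      obtain ⟨K, hKA, hK, hsK⟩ := hA.exists_lt_isCompact hs
      refine lt_of_lt_of_le hsK ?_
      exact ENNReal.le_sub_of_add_le_right hBfin (key2 K hK hKA)
    calc volume A + volume B ≤ (2 * volume C - volume B) + volume B := by gcongr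
      _ = 2 * volume C := by
        rw [tsub_add_cancel_of_le]
        simpa using key2 ∅ isCompact_empty (empty_subset _)

theorem four_mul_le_sq (x y : ℝ≥0∞) : 4 * (x * y) ≤ (x + y) ^ 2 := by
  by_cases hx : x = ∞
  · subst hx; simp
  by_cases hy : y = ∞
  · subst hy; simp
  lift x to ℝ≥0 using hx
  lift y to ℝ≥0 using hy
  norm_cast
  rw [← NNReal.coe_le_coe]
  push_cast
  nlinarith [sq_nonneg ((x : ℝ) - y)]

/-- Normalised one-dimensional Prekopa-Leindler. -/
theorem pl_one_normalized (f g h : ℝ → ℝ≥0∞) (hf : Measurable f) (hg : Measurable g)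
    (hh : Measurable h) (hf1 : ⨆ x, f x = 1) (hg1 : ⨆ x, g x = 1)
    (hfg : ∀ x y, f x * g y ≤ h ((x + y) / 2) ^ 2) :
    (∫⁻ x, f x) + (∫⁻ x, g x) ≤ 2 * ∫⁻ x, h x := by
  have hfle : ∀ x, f x ≤ 1 := fun x => hf1 ▸ le_iSup f x
  have hgle : ∀ x, g x ≤ 1 := fun x => hg1 ▸ le_iSup g x
  set k : ℝ → ℝ≥0∞ := fun x => min (h x) 1 with hk
  have hkm : Measurable k := hh.min measurable_const
  have hk1 : ∀ x, k x ≤ 1 := fun x => min_le_right _ _
  have hfgk : ∀ x y, f x * g y ≤ k ((x + y) / 2) ^ 2 := by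
    intro x y
    have h1 : f x * g y ≤ 1 := by
      calc f x * g y ≤ 1 * 1 := mul_le_mul' (hfle x) (hgle y)
        _ = 1 := by simp
    simp only [hk]
    rcases le_total (h ((x + y) / 2)) 1 with h2 | h2
    · rw [min_eq_left h2]; exact hfg x y
    · rw [min_eq_right h2]; simpa using h1
  have hcake : ∀ u : ℝ → ℝ≥0∞, Measurable u → (∀ x, u x ≤ 1) →
      ∫⁻ x, u x = ∫⁻ t in Ioi (0 : ℝ), volume {x | t < (u x).toReal} := by
    intro u hu hu1
    rw [← lintegral_eq_lintegral_meas_lt volume (Filter.Eventually.of_forall fun x => by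
      simp) hu.ennreal_toReal.aemeasurable]
    apply lintegral_congr
    intro x
    rw [ENNReal.ofReal_toReal (ne_top_of_le_ne_top ENNReal.one_ne_top (hu1 x))]
  have hkh : ∫⁻ x, k x ≤ ∫⁻ x, h x := lintegral_mono fun x => min_le_left _ _
  refine le_trans ?_ (mul_le_mul_right hkh 2)
  rw [hcake f hf hfle, hcake g hg hgle, hcake k hkm hk1]
  have hmeas : ∀ u : ℝ → ℝ≥0∞, Measurable (fun t : ℝ => volume {x | t < (u x).toReal}) := by
    intro u
    apply Antitone.measurable
    intro s t hst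
    exact measure_mono fun x hx => lt_of_le_of_lt hst hx
  rw [← lintegral_add_left (hmeas f), ← lintegral_const_mul _ (hmeas k)]
  refine setLIntegral_mono' measurableSet_Ioi ?_
  intro t ht
  have ht0 : 0 < t := ht
  rcases lt_or_ge t 1 with ht1 | ht1
  · apply bm_one
    · exact measurableSet_lt measurable_const hf.ennreal_toReal
    · exact measurableSet_lt measurable_const hg.ennreal_toReal
    · have : ENNReal.ofReal t < ⨆ x, f x := by
        rw [hf1]
        rw [← ENNReal.ofReal_one]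
        exact (ENNReal.ofReal_lt_ofReal_iff one_pos).2 ht1
      obtain ⟨x, hx⟩ := lt_iSup_iff.1 this
      refine ⟨x, ?_⟩
      exact (ENNReal.ofReal_lt_iff_lt_toReal ht0.le
        (ne_top_of_le_ne_top ENNReal.one_ne_top (hfle x))).1 hx
    · have : ENNReal.ofReal t < ⨆ x, g x := by
        rw [hg1]
        rw [← ENNReal.ofReal_one]
        exact (ENNReal.ofReal_lt_ofReal_iff one_pos).2 ht1
      obtain ⟨x, hx⟩ := lt_iSup_iff.1 this
      refine ⟨x, ?_⟩
      exact (ENNReal.ofReal_lt_iff_lt_toReal ht0.le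
        (ne_top_of_le_ne_top ENNReal.one_ne_top (hgle x))).1 hx
    · intro a ha b hb
      simp only [mem_ofPred_eq] at ha hb ⊢
      have h3 := ENNReal.toReal_mono (by
        exact ENNReal.pow_ne_top (ne_top_of_le_ne_top ENNReal.one_ne_top (hk1 _))) (hfgk a b)
      rw [ENNReal.toReal_mul, ENNReal.toReal_pow] at h3
      have h4 : t ^ 2 < (k ((a + b) / 2)).toReal ^ 2 := by
        calc t ^ 2 = t * t := by ring
          _ < (f a).toReal * (g b).toReal := by
            exact mul_lt_mul'' ha hb ht0.le ht0.le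
          _ ≤ _ := h3
      exact lt_of_pow_lt_pow_left₀ 2 ENNReal.toReal_nonneg h4
  · have e1 : {x | t < (f x).toReal} = ∅ := by
      ext x
      simp only [mem_ofPred_eq, mem_empty_iff_false, iff_false, not_lt]
      refine le_trans ?_ ht1
      have := ENNReal.toReal_mono ENNReal.one_ne_top (hfle x)
      simpa using this
    have e2 : {x | t < (g x).toReal} = ∅ := by
      ext x
      simp only [mem_ofPred_eq, mem_empty_iff_false, iff_false, not_lt]
      refine le_trans ?_ ht1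
      have := ENNReal.toReal_mono ENNReal.one_ne_top (hgle x)
      simpa using this
    rw [e1, e2]
    simp

theorem pl_one_bdd (f g h : ℝ → ℝ≥0∞) (hf : Measurable f) (hg : Measurable g)
    (hh : Measurable h) (hf1 : ⨆ x, f x ≠ ∞) (hg1 : ⨆ x, g x ≠ ∞)
    (hfg : ∀ x y, f x * g y ≤ h ((x + y) / 2) ^ 2) :
    (∫⁻ x, f x) * (∫⁻ x, g x) ≤ (∫⁻ x, h x) ^ 2 := by
  by_cases hf0 : ⨆ x, f x = 0
  · have : f = fun _ => 0 := by
      funext x
      have := le_iSup f x
      rw [hf0] at this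
      simpa using this
    rw [this]
    simp
  by_cases hg0 : ⨆ x, g x = 0
  · have : g = fun _ => 0 := by
      funext x
      have := le_iSup g x
      rw [hg0] at this
      simpa using this
    rw [this]
    simp
  obtain ⟨a, ha⟩ : ∃ a : ℝ≥0, (a : ℝ≥0∞) = ⨆ x, f x := ⟨_, ENNReal.coe_toNNReal hf1⟩
  obtain ⟨b, hb⟩ : ∃ b : ℝ≥0, (b : ℝ≥0∞) = ⨆ x, g x := ⟨_, ENNReal.coe_toNNReal hg1⟩
  have ha0 : (a : ℝ≥0∞) ≠ 0 := by rw [ha]; exact hf0
  have hb0 : (b : ℝ≥0∞) ≠ 0 := by rw [hb]; exact hg0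
  have ha0' : a ≠ 0 := by exact_mod_cast ha0
  have hb0' : b ≠ 0 := by exact_mod_cast hb0
  set c : ℝ≥0 := NNReal.sqrt (a * b) with hc
  have hcsq : c ^ 2 = a * b := by rw [hc]; exact NNReal.sq_sqrt _
  have hc0' : c ≠ 0 := by
    intro h0
    rw [h0] at hcsq
    have : a * b = 0 := by rw [← hcsq]; simp
    rcases mul_eq_zero.1 this with h1 | h1
    · exact ha0' h1
    · exact hb0' h1
  have hc0 : (c : ℝ≥0∞) ≠ 0 := by exact_mod_cast hc0'
  have hcsq' : (c : ℝ≥0∞) ^ 2 = a * b := by exact_mod_cast hcsq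
  have key := pl_one_normalized (fun x => (a : ℝ≥0∞)⁻¹ * f x) (fun x => (b : ℝ≥0∞)⁻¹ * g x)
    (fun x => (c : ℝ≥0∞)⁻¹ * h x) (hf.const_mul _) (hg.const_mul _) (hh.const_mul _)
    (by rw [← ENNReal.mul_iSup, ← ha]; exact ENNReal.inv_mul_cancel ha0 ENNReal.coe_ne_top)
    (by rw [← ENNReal.mul_iSup, ← hb]; exact ENNReal.inv_mul_cancel hb0 ENNReal.coe_ne_top)
    (by
      intro x y
      have h1 : ((c : ℝ≥0∞)⁻¹) ^ 2 = (a : ℝ≥0∞)⁻¹ * (b : ℝ≥0∞)⁻¹ := by
        rw [← ENNReal.inv_pow, hcsq', ENNReal.mul_inv (Or.inl ha0) (Or.inl ENNReal.coe_ne_top)]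
      calc (a : ℝ≥0∞)⁻¹ * f x * ((b : ℝ≥0∞)⁻¹ * g y)
          = ((a : ℝ≥0∞)⁻¹ * (b : ℝ≥0∞)⁻¹) * (f x * g y) := by ring
        _ ≤ ((a : ℝ≥0∞)⁻¹ * (b : ℝ≥0∞)⁻¹) * h ((x + y) / 2) ^ 2 := by
          exact mul_le_mul_right (hfg x y) _
        _ = ((c : ℝ≥0∞)⁻¹ * h ((x + y) / 2)) ^ 2 := by
          rw [mul_pow, h1])
  rw [lintegral_const_mul _ hf, lintegral_const_mul _ hg, lintegral_const_mul _ hh] at key
  set F := ∫⁻ x, f x
  set G := ∫⁻ x, g x
  set H := ∫⁻ x, h x
  have h5 : 4 * ((a : ℝ≥0∞)⁻¹ * F * ((b : ℝ≥0∞)⁻¹ * G)) ≤ (2 * ((c : ℝ≥0∞)⁻¹ * H)) ^ 2 :=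
    le_trans (four_mul_le_sq _ _) (by gcongr)
  have h6 : (a * b : ℝ≥0∞) * (4 * ((a : ℝ≥0∞)⁻¹ * F * ((b : ℝ≥0∞)⁻¹ * G))) ≤
      (a * b : ℝ≥0∞) * (2 * ((c : ℝ≥0∞)⁻¹ * H)) ^ 2 := by gcongr
  have h7 : (a * b : ℝ≥0∞) * (4 * ((a : ℝ≥0∞)⁻¹ * F * ((b : ℝ≥0∞)⁻¹ * G))) = 4 * (F * G) := by
    calc (a * b : ℝ≥0∞) * (4 * ((a : ℝ≥0∞)⁻¹ * F * ((b : ℝ≥0∞)⁻¹ * G)))
        = 4 * ((a : ℝ≥0∞) * (a : ℝ≥0∞)⁻¹ * F * ((b : ℝ≥0∞) * (b : ℝ≥0∞)⁻¹ * G)) := by ring
      _ = 4 * (F * G) := by
        rw [ENNReal.mul_inv_cancel ha0 ENNReal.coe_ne_top,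
          ENNReal.mul_inv_cancel hb0 ENNReal.coe_ne_top]
        simp
  have h8 : (a * b : ℝ≥0∞) * (2 * ((c : ℝ≥0∞)⁻¹ * H)) ^ 2 = 4 * H ^ 2 := by
    rw [← hcsq']
    calc (c : ℝ≥0∞) ^ 2 * (2 * ((c : ℝ≥0∞)⁻¹ * H)) ^ 2
        = 2 ^ 2 * (((c : ℝ≥0∞) * (c : ℝ≥0∞)⁻¹) ^ 2 * H ^ 2) := by ring
      _ = 4 * H ^ 2 := by
        rw [ENNReal.mul_inv_cancel hc0 ENNReal.coe_ne_top]
        norm_num
  rw [h7, h8] at h6
  exact (ENNReal.mul_le_mul_iff_right (by norm_num) (by norm_num)).1 h6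

theorem pl_one (f g h : ℝ → ℝ≥0∞) (hf : Measurable f) (hg : Measurable g)
    (hh : Measurable h) (hfg : ∀ x y, f x * g y ≤ h ((x + y) / 2) ^ 2) :
    (∫⁻ x, f x) * (∫⁻ x, g x) ≤ (∫⁻ x, h x) ^ 2 := by
  have hcut : ∀ u : ℝ → ℝ≥0∞, Measurable u →
      ∫⁻ x, u x = ⨆ n : ℕ, ∫⁻ x, min (u x) n := by
    intro u hu
    rw [← lintegral_iSup (fun n => hu.min measurable_const)
      (fun m n hmn x => min_le_min_left _ (by exact_mod_cast hmn))]
    apply lintegral_congr
    intro x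
    apply le_antisymm
    · by_cases hx : u x = ∞
      · rw [hx]
        simp only [top_le_iff, le_top, inf_of_le_right]
        exact ENNReal.iSup_natCast
      · obtain ⟨n, hn⟩ := ENNReal.exists_nat_gt hx
        refine le_trans ?_ (le_iSup _ n)
        rw [min_eq_left hn.le]
    · exact iSup_le fun n => min_le_left _ _
  have hsup : ∀ (u : ℝ → ℝ≥0∞) (n : ℕ), ⨆ x, min (u x) (n : ℝ≥0∞) ≠ ∞ := by
    intro u n
    refine ne_top_of_le_ne_top (ENNReal.natCast_ne_top n) (iSup_le fun x => min_le_right _ _)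
  rw [hcut f hf, hcut g hg, ENNReal.iSup_mul]
  refine iSup_le fun n => ?_
  rw [ENNReal.mul_iSup]
  refine iSup_le fun m => ?_
  refine pl_one_bdd _ _ h (hf.min measurable_const) (hg.min measurable_const) hh
    (hsup f n) (hsup g m) ?_
  intro x y
  exact le_trans (mul_le_mul' (min_le_left _ _) (min_le_left _ _)) (hfg x y)

theorem pl_pi (n : ℕ) : ∀ (f g h : (Fin n → ℝ) → ℝ≥0∞), Measurable f → Measurable g →
    Measurable h → (∀ x y, f x * g y ≤ h (fun i => (x i + y i) / 2) ^ 2) →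
    (∫⁻ x, f x) * (∫⁻ x, g x) ≤ (∫⁻ x, h x) ^ 2 := by
  induction n with
  | zero =>
    intro f g h hf hg hh hfg
    have hv : (volume : Measure (Fin 0 → ℝ)) univ = 1 := by
      simp [volume_pi]
    rw [lintegral_unique, lintegral_unique, lintegral_unique, hv]
    simp only [mul_one]
    have hall : ∀ z w : Fin 0 → ℝ, z = w := fun z w => funext fun i => i.elim0
    obtain ⟨o, ho⟩ : ∃ o : Fin 0 → ℝ, ∀ z, z = o := ⟨fun _ => 0, fun z => hall z _⟩
    have h1 := hfg o o
    rw [ho fun i => (o i + o i) / 2] at h1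
    have hgen : ∀ z : Fin 0 → ℝ, f z * g z ≤ h z ^ 2 := by
      intro z
      rw [ho z]
      exact h1
    exact hgen _
  | succ n ih =>
    intro f g h hf hg hh hfg
    set e := MeasurableEquiv.piFinSuccAbove (fun _ : Fin (n + 1) => ℝ) 0 with he
    have hvp : MeasurePreserving e volume volume :=
      volume_preserving_piFinSuccAbove (fun _ : Fin (n + 1) => ℝ) 0
    have hsplit : ∀ u : (Fin (n + 1) → ℝ) → ℝ≥0∞, Measurable u →
        ∫⁻ x, u x = ∫⁻ a : ℝ, ∫⁻ x : Fin n → ℝ, u (e.symm (a, x)) := by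
      intro u hu
      rw [← hvp.symm.lintegral_comp hu]
      exact lintegral_prod _ (hu.comp e.symm.measurable).aemeasurable
    have hmid : ∀ (a b : ℝ) (x y : Fin n → ℝ),
        (fun i => (e.symm (a, x) i + e.symm (b, y) i) / 2) =
          e.symm ((a + b) / 2, fun i => (x i + y i) / 2) := by
      intro a b x y
      have hes : ∀ (c : ℝ) (z : Fin n → ℝ),
          e.symm (c, z) = (Fin.cons c z : Fin (n + 1) → ℝ) := by
        intro c z
        have h1 : e.symm (c, z) = (0 : Fin (n + 1)).insertNth (α := fun _ => ℝ) c z := rfl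
        rw [h1]
        exact Fin.insertNth_zero' c z
      rw [hes, hes, hes]
      funext i
      refine Fin.cases ?_ (fun j => ?_) i
      · simp only [Fin.cons_zero]
      · simp only [Fin.cons_succ]
    have hm2 : ∀ u : (Fin (n + 1) → ℝ) → ℝ≥0∞, Measurable u →
        Measurable fun a : ℝ => ∫⁻ x : Fin n → ℝ, u (e.symm (a, x)) := by
      intro u hu
      exact (hu.comp e.symm.measurable).lintegral_prod_right'
    rw [hsplit f hf, hsplit g hg, hsplit h hh]
    apply pl_one _ _ _ (hm2 f hf) (hm2 g hg) (hm2 h hh)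
    intro a b
    have hsec : ∀ (u : (Fin (n + 1) → ℝ) → ℝ≥0∞) (c : ℝ), Measurable u →
        Measurable fun x : Fin n → ℝ => u (e.symm (c, x)) := by
      intro u c hu
      exact hu.comp (e.symm.measurable.comp measurable_prodMk_left)
    apply ih _ _ _ (hsec f a hf) (hsec g b hg) (hsec h _ hh)
    intro x y
    have := hfg (e.symm (a, x)) (e.symm (b, y))
    rwa [hmid] at this

/-- Prekopa-Leindler inequality on Euclidean space (midpoint form). -/
theorem prekopa_leindler {d : ℕ} (f g h : EuclideanSpace ℝ (Fin d) → ℝ≥0∞)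
    (hf : Measurable f) (hg : Measurable g) (hh : Measurable h)
    (hfg : ∀ x y, f x * g y ≤ h ((2 : ℝ)⁻¹ • (x + y)) ^ 2) :
    (∫⁻ x, f x) * (∫⁻ x, g x) ≤ (∫⁻ x, h x) ^ 2 := by
  have hvp := PiLp.volume_preserving_toLp (Fin d)
  have htr : ∀ u : EuclideanSpace ℝ (Fin d) → ℝ≥0∞, Measurable u →
      ∫⁻ x, u x = ∫⁻ x : Fin d → ℝ, u (WithLp.toLp 2 x) := by
    intro u hu
    rw [← hvp.lintegral_comp hu]
  have hm : ∀ u : EuclideanSpace ℝ (Fin d) → ℝ≥0∞, Measurable u →
      Measurable fun x : Fin d → ℝ => u (WithLp.toLp 2 x) := by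
    intro u hu
    exact hu.comp hvp.measurable
  rw [htr f hf, htr g hg, htr h hh]
  apply pl_pi d _ _ _ (hm f hf) (hm g hg) (hm h hh)
  intro x y
  have := hfg (WithLp.toLp 2 x) (WithLp.toLp 2 y)
  convert this using 4
  ext i
  simp
  ring

end Vale.Agent.P074
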